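import Mathlib

/-! # Linear algebra for generated subbundles: Cramer charts, closedness, semicontinuity -/

set_option autoImplicit false

open Filter Topology Set Module Submodule

namespace Crest.Agent.X262.Obs

section Cramer

variable {J ι : Type*} [Fintype J] {c : ℕ} {R R' : Type*} [CommRing R] [Algebra ℂ R] [CommRing R']
  [Algebra ℂ R']

/-- the square matrix `A ∘ (m ∘ s)`. -/
def chM (A : Matrix (Fin c) J ℂ) (s : Fin c → ι) (m : ι → J → R) : Matrix (Fin c) (Fin c) R :=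
  Matrix.of fun a k => ∑ j, A a j • m (s k) j

/-- Cramer coefficients of `σ`. -/
noncomputable def chT (A : Matrix (Fin c) J ℂ) (s : Fin c → ι) (m : ι → J → R) (σ : J → R) :
    Fin c → R := (chM A s m).adjugate.mulVec fun a => ∑ j, A a j • σ j

theorem map_chM (φ : R →ₐ[ℂ] R') (A : Matrix (Fin c) J ℂ) (s : Fin c → ι) (m : ι → J → R) :
    (chM A s m).map φ = chM A s fun i j => φ (m i j) := by
  ext a k; simp [chM]

theorem map_det_chM (φ : R →ₐ[ℂ] R') (A : Matrix (Fin c) J ℂ) (s : Fin c → ι) (m : ι → J → R) :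
    φ (chM A s m).det = (chM A s fun i j => φ (m i j)).det := by
  rw [AlgHom.map_det, ← map_chM]; rfl

theorem map_chT (φ : R →ₐ[ℂ] R') (A : Matrix (Fin c) J ℂ) (s : Fin c → ι) (m : ι → J → R)
    (σ : J → R) (k : Fin c) :
    φ (chT A s m σ k) = chT A s (fun i j => φ (m i j)) (fun j => φ (σ j)) k := by
  have h := AlgHom.map_adjugate φ (chM A s m)
  simp only [AlgHom.mapMatrix_apply, map_chM] at h
  simp only [chT, Matrix.mulVec, dotProduct, map_sum, map_mul, map_smul, ← h, Matrix.map_apply]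

theorem det_chM_mem (P : Subalgebra ℂ R) (A : Matrix (Fin c) J ℂ) (s : Fin c → ι)
    {m : ι → J → R} (hm : ∀ i j, m i j ∈ P) : (chM A s m).det ∈ P := by
  have := map_det_chM P.val A s fun i j => ⟨m i j, hm i j⟩
  simp only [Subalgebra.coe_val] at this
  rw [← this]; exact Subtype.prop _

theorem chT_mem (P : Subalgebra ℂ R) (A : Matrix (Fin c) J ℂ) (s : Fin c → ι)
    {m : ι → J → R} (hm : ∀ i j, m i j ∈ P) {σ : J → R} (hσ : ∀ j, σ j ∈ P) (k : Fin c) :
    chT A s m σ k ∈ P := by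
  have := map_chT P.val A s (fun i j => ⟨m i j, hm i j⟩) (fun j => ⟨σ j, hσ j⟩) k
  simp only [Subalgebra.coe_val] at this
  rw [← this]; exact Subtype.prop _

/-- the Cramer identity for a vector in the span of a family of rank `≤ c`. -/
theorem cramer_loc [Finite ι] (A : Matrix (Fin c) J ℂ) (s : Fin c → ι) {m : ι → J → ℂ}
    (hc : finrank ℂ (span ℂ (range m)) ≤ c) {σ : J → ℂ} (hσ : σ ∈ span ℂ (range m)) (j : J) :
    (chM A s m).det * ((chM A s m).det * σ j - ∑ k, chT A s m σ k * m (s k) j) = 0 := by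
  by_cases h0 : (chM A s m).det = 0
  · simp [h0]
  have hu : IsUnit (chM A s m) := (Matrix.isUnit_iff_isUnit_det _).2 (Ne.isUnit h0)
  have hli : LinearIndependent ℂ (m ∘ s) := by
    refine LinearIndependent.of_comp (Matrix.mulVecLin A) ?_
    have e : ⇑A.mulVecLin ∘ m ∘ s = (chM A s m).col := by
      funext k a
      simp [chM, Matrix.mulVec, dotProduct, Matrix.col]
    rw [e]
    exact Matrix.linearIndependent_cols_iff_isUnit.2 hu
  have hsp : span ℂ (range (m ∘ s)) = span ℂ (range m) :=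
    eq_of_le_of_finrank_le (span_mono (range_comp_subset_range _ _))
      (by rw [finrank_span_eq_card hli]; simpa using hc)
  rw [← hsp] at hσ
  obtain ⟨a, rfl⟩ := (mem_span_range_iff_exists_fun ℂ).1 hσ
  have h1 : (fun b => ∑ j, A b j • (∑ k, a k • (m ∘ s) k) j) = (chM A s m).mulVec a := by
    funext b
    simp only [chM, Matrix.mulVec, dotProduct, Matrix.of_apply, Finset.sum_apply, Pi.smul_apply,
      smul_eq_mul, Function.comp, Finset.mul_sum, Finset.sum_mul]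
    rw [Finset.sum_comm]
    exact Finset.sum_congr rfl fun _ _ => Finset.sum_congr rfl fun _ _ => by ring
  have h2 : chT A s m (∑ k, a k • (m ∘ s) k) = (chM A s m).det • a := by
    rw [chT, h1, Matrix.mulVec_mulVec, Matrix.adjugate_mul, Matrix.smul_mulVec, Matrix.one_mulVec]
  rw [h2]
  simp [Finset.mul_sum, mul_assoc]

/-- a family of rank `c` has a Cramer chart. -/
theorem exists_chart [Finite ι] {m : ι → J → ℂ} (hc : finrank ℂ (span ℂ (range m)) = c) :
    ∃ (A : Matrix (Fin c) J ℂ) (s : Fin c → ι), chM A s m = 1 := by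
  classical
  subst hc
  obtain ⟨f, hf, -, hli⟩ := exists_fun_fin_finrank_span_eq ℂ (range m)
  choose s hs using hf
  obtain ⟨g, hg⟩ := (Fintype.linearCombination ℂ f).exists_leftInverse_of_injective
    (LinearMap.ker_eq_bot.2 (linearIndependent_iff_injective_fintypeLinearCombination.1 hli))
  refine ⟨LinearMap.toMatrix' g, s, ?_⟩
  ext a k
  have h1 := congrFun (LinearMap.congr_fun hg (Pi.single k 1)) a
  have h2 := congrFun (LinearMap.toMatrix'_mulVec g (m (s k))) a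
  simp only [Matrix.mulVec, dotProduct] at h2
  simp only [chM, Matrix.of_apply, smul_eq_mul]
  rw [h2, hs]
  simpa [Matrix.one_apply, Pi.single_apply] using h1

end Cramer

section Closed

variable {W U ι : Type*} [NormedAddCommGroup W] [NormedSpace ℂ W] {l : Filter U}

/-- the rank of a finite family is lower semicontinuous. -/
theorem rank_lsc [Finite ι] {m : U → ι → W} {m₀ : ι → W} (hm : Tendsto m l (𝓝 m₀)) :
    ∀ᶠ u in l, finrank ℂ (span ℂ (range m₀)) ≤ finrank ℂ (span ℂ (range (m u))) := by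
  have := FiniteDimensional.span_of_finite ℂ (finite_range m₀)
  obtain ⟨f, hf, -, hli⟩ := exists_fun_fin_finrank_span_eq ℂ (range m₀)
  choose s hs using hf
  have h1 : Tendsto (fun u => m u ∘ s) l (𝓝 f) := by
    refine tendsto_pi_nhds.2 fun k => ?_
    rw [← hs]; exact tendsto_pi_nhds.1 hm (s k)
  filter_upwards [h1.eventually hli.eventually] with u hu
  have := FiniteDimensional.span_of_finite ℂ (finite_range (m u))
  have := finrank_mono (span_mono (R := ℂ) (range_comp_subset_range s (m u)))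
  rwa [finrank_span_eq_card hu, Fintype.card_fin] at this

/-- closedness: limits of vectors in the spans lie in the span of the limit, if the rank does not
drop. -/
theorem mem_span_of_tendsto [Finite ι] [l.NeBot] {m : U → ι → W} {m₀ : ι → W}
    (hm : Tendsto m l (𝓝 m₀)) {σ : U → W} {σ₀ : W} (hσ : Tendsto σ l (𝓝 σ₀))
    (h : ∀ᶠ u in l, σ u ∈ span ℂ (range (m u)) ∧
      finrank ℂ (span ℂ (range (m u))) ≤ finrank ℂ (span ℂ (range m₀))) :
    σ₀ ∈ span ℂ (range m₀) := by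
  by_contra hn
  have h1 : Tendsto (fun u => fun o : Option ι => o.elim (σ u) (m u)) l
      (𝓝 fun o => o.elim σ₀ m₀) := by
    refine tendsto_pi_nhds.2 ?_
    rintro (_ | i)
    · exact hσ
    · exact tendsto_pi_nhds.1 hm i
  have e : ∀ (a : W) (b : ι → W), range (fun o : Option ι => o.elim a b) = insert a (range b) :=
    fun a b => by rw [Option.range_eq]; rfl
  obtain ⟨u, hu, h2, h3⟩ := ((rank_lsc h1).and h).exists
  rw [e, e, span_insert_eq_span h2] at hu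
  have : span ℂ (range m₀) = span ℂ (insert σ₀ (range m₀)) :=
    have := FiniteDimensional.span_of_finite ℂ ((finite_range m₀).insert σ₀)
    eq_of_le_of_finrank_le (span_mono (subset_insert _ _)) (hu.trans h3)
  exact hn (this ▸ subset_span (mem_insert _ _))

/-- a family of subspaces with closed graph at the limit is `ε`-close to the limit subspace. -/
theorem close_of_closed [FiniteDimensional ℂ W] {E : U → Submodule ℂ W} {E₀ : Submodule ℂ W}
    (h : ∀ (𝒰 : Ultrafilter U) (σ : U → W) (σ₀ : W), ↑𝒰 ≤ l → (∀ᶠ u in 𝒰, σ u ∈ E u) →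
      Tendsto σ 𝒰 (𝓝 σ₀) → σ₀ ∈ E₀) {ε : ℝ} (hε : 0 < ε) :
    ∀ᶠ u in l, ∀ σ ∈ E u, ∃ τ ∈ E₀, ‖σ - τ‖ ≤ ε * ‖σ‖ := by
  by_contra hn
  have hn' : ∃ᶠ u in l, ∃ σ, σ ∈ E u ∧ ‖σ‖ = 1 ∧ ∀ τ ∈ E₀, ε < ‖σ - τ‖ := by
    refine (not_eventually.1 hn).mono fun u hu => ?_
    push Not at hu
    obtain ⟨σ, hσ, hτ⟩ := hu
    have h0 : σ ≠ 0 := by rintro rfl; simpa using hτ 0 E₀.zero_mem
    have hp : 0 < ‖σ‖ := norm_pos_iff.2 h0
    have hc : (‖σ‖ : ℂ) ≠ 0 := by exact_mod_cast hp.ne'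
    refine ⟨(‖σ‖ : ℂ)⁻¹ • σ, (E u).smul_mem _ hσ, by simp [norm_smul, hp.ne'], fun τ hτ' => ?_⟩
    have h1 := hτ _ (E₀.smul_mem (‖σ‖ : ℂ) hτ')
    have h2 : σ - (‖σ‖ : ℂ) • τ = (‖σ‖ : ℂ) • ((‖σ‖ : ℂ)⁻¹ • σ - τ) := by
      rw [smul_sub, smul_inv_smul₀ hc]
    rw [h2, norm_smul, Complex.norm_real, norm_norm, mul_comm] at h1
    exact lt_of_mul_lt_mul_left h1 hp.le
  obtain ⟨𝒰, h1⟩ := Ultrafilter.exists_le (h := frequently_iff_neBot.1 hn')
  classical
  let σ : U → W := fun u =>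
    if h : ∃ σ, σ ∈ E u ∧ ‖σ‖ = 1 ∧ ∀ τ ∈ E₀, ε < ‖σ - τ‖ then h.choose else 0
  have hσ : ∀ᶠ u in 𝒰, σ u ∈ E u ∧ ‖σ u‖ = 1 ∧ ∀ τ ∈ E₀, ε < ‖σ u - τ‖ := by
    filter_upwards [le_principal_iff.1 (h1.trans inf_le_right)] with u hu
    have hu' : ∃ σ, σ ∈ E u ∧ ‖σ‖ = 1 ∧ ∀ τ ∈ E₀, ε < ‖σ - τ‖ := hu
    simp only [σ, dif_pos hu']
    exact hu'.choose_spec
  have := FiniteDimensional.proper ℂ W
  obtain ⟨σ₀, -, h2⟩ := (isCompact_closedBall (0 : W) 1).ultrafilter_le_nhds (𝒰.map σ)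
    (le_principal_iff.2 (hσ.mono fun u hu => by simp [hu.2.1]))
  have h3 := h 𝒰 σ σ₀ (h1.trans inf_le_left) (hσ.mono fun u hu => hu.1) h2
  have h4 : Tendsto (fun u => ‖σ u - σ₀‖) 𝒰 (𝓝 0) := tendsto_iff_norm_sub_tendsto_zero.1 h2
  obtain ⟨u, a, b⟩ := ((h4.eventually (gt_mem_nhds hε)).and hσ).exists
  exact absurd (b.2.2 σ₀ h3) (not_lt.2 a.le)

/-- upper semicontinuity of the dimension from closeness. -/
theorem finrank_le_of_close [FiniteDimensional ℂ W] (E₀ : Submodule ℂ W) :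
    ∃ ε > 0, ∀ E : Submodule ℂ W, (∀ σ ∈ E, ∃ τ ∈ E₀, ‖σ - τ‖ ≤ ε * ‖σ‖) →
      finrank ℂ E ≤ finrank ℂ E₀ := by
  obtain ⟨g, hg⟩ := E₀.subtype.exists_leftInverse_of_injective E₀.ker_subtype
  set p : W →L[ℂ] W := LinearMap.toContinuousLinearMap (E₀.subtype ∘ₗ g) with hp
  refine ⟨(2 * (1 + ‖p‖))⁻¹, by positivity, fun E hE => ?_⟩
  refine LinearMap.finrank_le_finrank_of_injective (f := g.domRestrict E) ?_
  rw [← LinearMap.ker_eq_bot, LinearMap.ker_eq_bot']
  rintro ⟨σ, hσ⟩ h0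
  obtain ⟨τ, hτ, h⟩ := hE σ hσ
  have h1 : p σ = 0 := by
    have : g σ = 0 := h0
    simp [hp, this]
  have h2 : p τ = τ := congrArg Subtype.val (LinearMap.congr_fun hg ⟨τ, hτ⟩)
  have h3 : σ = (σ - τ) - p (σ - τ) := by rw [map_sub, h1, h2]; abel
  have h4 : ‖σ‖ ≤ (1 + ‖p‖) * ‖σ - τ‖ := by
    conv_lhs => rw [h3]
    refine (norm_sub_le _ _).trans ?_
    have := p.le_opNorm (σ - τ)
    linarith
  have h5 : (1 + ‖p‖) * ‖σ - τ‖ ≤ ‖σ‖ / 2 := by
    calc _ ≤ (1 + ‖p‖) * ((2 * (1 + ‖p‖))⁻¹ * ‖σ‖) := by gcongr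
      _ = ‖σ‖ / 2 := by field_simp
  have : ‖σ‖ ≤ 0 := by linarith
  exact Subtype.ext (norm_le_zero_iff.1 this)

end Closed

/-- finitely many of a separating family of functionals separate a finite-dimensional subspace. -/
theorem exists_finite_sep {F τ : Type*} [AddCommGroup F] [Module ℂ F] (M : Submodule ℂ F)
    [FiniteDimensional ℂ M] (ℓ : τ → F →ₗ[ℂ] ℂ) (h : ∀ x ∈ M, (∀ t, ℓ t x = 0) → x = 0) :
    ∃ s : Finset τ, ∀ x ∈ M, (∀ t ∈ s, ℓ t x = 0) → x = 0 := by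
  classical
  let K : Finset τ → Submodule ℂ M := fun s => ⨅ t ∈ s, LinearMap.ker ((ℓ t).domRestrict M)
  obtain ⟨_, ⟨s, rfl⟩, hs⟩ := (wellFounded_lt (α := Submodule ℂ M)).has_min (range K) ⟨_, ∅, rfl⟩
  refine ⟨s, fun x hx h0 => h x hx fun t => ?_⟩
  have hle : K (insert t s) ≤ K s :=
    le_iInf₂ fun t' ht' => iInf₂_le t' (Finset.mem_insert_of_mem ht')
  have heq : K (insert t s) = K s := eq_of_le_of_not_lt hle (hs _ ⟨_, rfl⟩)
  have hx' : (⟨x, hx⟩ : M) ∈ K s := by simpa [K, mem_iInf] using h0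
  rw [← heq] at hx'
  simpa [K, mem_iInf] using ((mem_iInf _).1 ((mem_iInf _).1 hx' t) (Finset.mem_insert_self _ _))

/-- lower semicontinuity of the rank for families in varying spaces, seen through functionals. -/
theorem rank_lsc' {U ι τ F₀ : Type*} [Finite ι] {F : U → Type*} [∀ u, AddCommGroup (F u)]
    [∀ u, Module ℂ (F u)] [AddCommGroup F₀] [Module ℂ F₀] {l : Filter U}
    (g : ∀ u, ι → F u) (g₀ : ι → F₀) (ℓ : ∀ u, τ → F u →ₗ[ℂ] ℂ) (ℓ₀ : τ → F₀ →ₗ[ℂ] ℂ)
    (hsep : ∀ x ∈ span ℂ (range g₀), (∀ t, ℓ₀ t x = 0) → x = 0)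
    (hl : ∀ t i, Tendsto (fun u => ℓ u t (g u i)) l (𝓝 (ℓ₀ t (g₀ i)))) :
    ∀ᶠ u in l, finrank ℂ (span ℂ (range g₀)) ≤ finrank ℂ (span ℂ (range (g u))) := by
  have := FiniteDimensional.span_of_finite ℂ (finite_range g₀)
  obtain ⟨s, hs⟩ := exists_finite_sep _ ℓ₀ hsep
  let L₀ : F₀ →ₗ[ℂ] (s → ℂ) := LinearMap.pi fun t => ℓ₀ t
  let L : ∀ u, F u →ₗ[ℂ] (s → ℂ) := fun u => LinearMap.pi fun t => ℓ u t
  have h1 : Tendsto (fun u => L u ∘ g u) l (𝓝 (L₀ ∘ g₀)) :=
    tendsto_pi_nhds.2 fun i => tendsto_pi_nhds.2 fun t => hl t i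
  filter_upwards [rank_lsc h1] with u hu
  rw [range_comp, range_comp, ← map_span, ← map_span] at hu
  have := FiniteDimensional.span_of_finite ℂ (finite_range (g u))
  refine le_trans (le_of_eq ?_) (hu.trans (finrank_map_le _ _))
  refine LinearEquiv.finrank_eq (LinearEquiv.ofBijective (L₀.submoduleMap _) ⟨?_, ?_⟩)
  · rw [← LinearMap.ker_eq_bot, LinearMap.ker_eq_bot']
    rintro ⟨x, hx⟩ h0
    refine Subtype.ext (hs x hx fun t ht => ?_)
    exact congrFun (congrArg Subtype.val h0) ⟨t, ht⟩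
  · exact LinearMap.submoduleMap_surjective _ _

/-- rank–nullity for a subspace. -/
theorem finrank_map_add {F G : Type*} [AddCommGroup F] [Module ℂ F] [AddCommGroup G] [Module ℂ G]
    (L : F →ₗ[ℂ] G) (B : Submodule ℂ F) [FiniteDimensional ℂ B] :
    finrank ℂ (B.map L) + finrank ℂ (B ⊓ LinearMap.ker L : Submodule ℂ F) = finrank ℂ B := by
  have := LinearMap.finrank_range_add_finrank_ker (L.domRestrict B)
  rw [LinearMap.range_domRestrict, LinearMap.ker_domRestrict] at this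
  rw [← this, ← finrank_map_subtype_eq B (comap B.subtype (LinearMap.ker L)), map_comap_subtype]

end Crest.Agent.X262.Obs
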