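import Crest.Agent.X262.Obs.Tree
import Crest.Agent.X262.Obs.Lin

/-! # Generated subbundles of `⊕ O(K j)` on a tree: Riemann–Roch, lifting, exactness -/

set_option autoImplicit false

open Filter Topology Set Module Submodule

namespace Crest.Agent.X262.Obs

namespace PTree

variable {V J ι : Type*} (T : PTree V)

/-- sections of `⊕_j O(K j + e)`. -/
def W (K : J → V → ℕ) (e : V → ℕ) : Submodule ℂ (J → T.C → ℂ) :=
  Submodule.pi univ fun j => T.S (K j + e)

variable {T} in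
theorem mem_W {K : J → V → ℕ} {e : V → ℕ} {σ : J → T.C → ℂ} :
    σ ∈ T.W K e ↔ ∀ j, σ j ∈ T.S (K j + e) := by simp [W, Submodule.mem_pi]

instance [Finite V] [Finite J] (K : J → V → ℕ) (e : V → ℕ) : FiniteDimensional ℂ (T.W K e) := by
  refine FiniteDimensional.of_injective
    (LinearMap.pi fun j => ((LinearMap.proj j).comp (T.W K e).subtype).codRestrict (T.S (K j + e))
      fun σ => mem_W.1 σ.2 j) fun σ τ h => Subtype.ext (funext fun j => ?_)
  exact congrArg Subtype.val (congrFun h j)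

theorem W_mono (K : J → V → ℕ) {e e' : V → ℕ} (h : e ≤ e') : T.W K e ≤ T.W K e' :=
  fun _ H => mem_W.2 fun j => T.S_mono (add_le_add_right h _) (mem_W.1 H j)

theorem smul_mem_W {K : J → V → ℕ} {e e' : V → ℕ} {σ : J → T.C → ℂ} {h : T.C → ℂ}
    (H : h ∈ T.S e) (hσ : σ ∈ T.W K e') : h • σ ∈ T.W K (e' + e) := mem_W.2 fun j => by
  have := T.mul_mem (mem_W.1 hσ j) H
  rwa [add_assoc, mul_comm] at this

/-- value of a vector of functions at a point. -/
def val (x : T.C) : (J → T.C → ℂ) →ₗ[ℂ] (J → ℂ) where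
  toFun σ j := σ j x
  map_add' _ _ := rfl
  map_smul' _ _ := rfl

@[simp] theorem val_apply (x : T.C) (σ : J → T.C → ℂ) (j : J) : T.val x σ j = σ j x := rfl

theorem val_smul (x : T.C) (h : T.C → ℂ) (σ : J → T.C → ℂ) :
    T.val x (h • σ) = h x • T.val x σ := rfl

/-- value of a section of `⊕ O(K j + n v)` at the pole `v`. -/
noncomputable def leadV [Finite V] (K : J → V → ℕ) (v : V) (n : ℕ) :
    (J → T.C → ℂ) →ₗ[ℂ] (J → ℂ) :=
  LinearMap.pi fun j => (T.lead v (K j v + n)).comp (LinearMap.proj j)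

@[simp] theorem leadV_apply [Finite V] (K : J → V → ℕ) (v : V) (n : ℕ) (σ : J → T.C → ℂ) (j : J) :
    T.leadV K v n σ j = T.lead v (K j v + n) (σ j) := rfl

/-- the fibre at `x` of the subbundle generated by `m`. -/
def N (m : ι → J → T.C → ℂ) (x : T.C) : Submodule ℂ (J → ℂ) :=
  span ℂ (range fun i => T.val x (m i))

/-- the fibre at the pole `v`. -/
def Ninf [Finite V] (K : J → V → ℕ) (m : ι → J → T.C → ℂ) (v : V) : Submodule ℂ (J → ℂ) :=
  span ℂ (range fun i => T.leadV K v 0 (m i))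

/-- `m` generates a subbundle of rank `c` of `⊕ O(K j)`. -/
structure Gen [Finite V] (K : J → V → ℕ) (m : ι → J → T.C → ℂ) (c : ℕ) : Prop where
  mem : ∀ i, m i ∈ T.W K 0
  rk : ∀ x, finrank ℂ (T.N m x) = c
  rkInf : ∀ v, finrank ℂ (T.Ninf K m v) = c

/-- sections of the twisted subbundle. -/
def E (K : J → V → ℕ) (m : ι → J → T.C → ℂ) (e : V → ℕ) : Submodule ℂ (J → T.C → ℂ) :=
  T.W K e ⊓ ⨅ x, (T.N m x).comap (T.val x)

variable {T} in
theorem mem_E {K : J → V → ℕ} {m : ι → J → T.C → ℂ} {e : V → ℕ} {σ : J → T.C → ℂ} :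
    σ ∈ T.E K m e ↔ σ ∈ T.W K e ∧ ∀ x, T.val x σ ∈ T.N m x := by simp [E]

instance [Finite V] [Finite J] (K : J → V → ℕ) (m : ι → J → T.C → ℂ) (e : V → ℕ) :
    FiniteDimensional ℂ (T.E K m e) := Submodule.finiteDimensional_inf_left _ _

/-- combinations of the generators with coefficients in `S e`. -/
def I (m : ι → J → T.C → ℂ) (e : V → ℕ) : Submodule ℂ (J → T.C → ℂ) :=
  span ℂ (range fun p : Mon e × ι => T.mon e p.1 • m p.2)

theorem E_mono (K : J → V → ℕ) (m : ι → J → T.C → ℂ) {e e' : V → ℕ} (h : e ≤ e') :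
    T.E K m e ≤ T.E K m e' := inf_le_inf_right _ (T.W_mono K h)

theorem smul_mem_E {K : J → V → ℕ} {m : ι → J → T.C → ℂ} {e e' : V → ℕ} {σ : J → T.C → ℂ}
    {h : T.C → ℂ} (H : h ∈ T.S e) (hσ : σ ∈ T.E K m e') : h • σ ∈ T.E K m (e' + e) :=
  mem_E.2 ⟨T.smul_mem_W H (mem_E.1 hσ).1, fun x => smul_mem _ (h x) ((mem_E.1 hσ).2 x)⟩

theorem smul_mem_I {m : ι → J → T.C → ℂ} {e : V → ℕ} {h : T.C → ℂ} (H : h ∈ T.S e) (i : ι) :
    h • m i ∈ T.I m e := by
  induction H using span_induction with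
  | mem _ hx => obtain ⟨p, rfl⟩ := hx; exact subset_span ⟨(p, i), rfl⟩
  | zero => simp
  | add _ _ _ _ h1 h2 => rw [add_smul]; exact add_mem h1 h2
  | smul a _ _ h1 => rw [smul_assoc]; exact smul_mem _ _ h1

theorem I_le {m : ι → J → T.C → ℂ} {e : V → ℕ} {M : Submodule ℂ (J → T.C → ℂ)}
    (h : ∀ a ∈ T.S e, ∀ i, a • m i ∈ M) : T.I m e ≤ M := by
  refine span_le.2 ?_
  rintro _ ⟨p, rfl⟩
  exact h _ (subset_span ⟨p.1, rfl⟩) _

theorem I_mono (m : ι → J → T.C → ℂ) {e e' : V → ℕ} (h : e ≤ e') : T.I m e ≤ T.I m e' :=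
  T.I_le fun _ ha i => T.smul_mem_I (T.S_mono h ha) i

theorem smul_mem_I' {m : ι → J → T.C → ℂ} {e e' : V → ℕ} {h : T.C → ℂ} (H : h ∈ T.S e)
    {σ : J → T.C → ℂ} (hσ : σ ∈ T.I m e') : h • σ ∈ T.I m (e + e') := by
  induction hσ using span_induction with
  | mem _ hx =>
    obtain ⟨p, rfl⟩ := hx
    rw [smul_smul]; exact T.smul_mem_I (T.mul_mem H (subset_span ⟨p.1, rfl⟩)) _
  | zero => simp
  | add _ _ _ _ h1 h2 => rw [smul_add]; exact add_mem h1 h2
  | smul a _ _ h1 => rw [smul_comm]; exact smul_mem _ _ h1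

variable {T} [Finite V] {K : J → V → ℕ} {m : ι → J → T.C → ℂ} {c : ℕ}

theorem Gen.mem_E (h : T.Gen K m c) (i : ι) : m i ∈ T.E K m 0 :=
  PTree.mem_E.2 ⟨h.mem i, fun _ => subset_span ⟨i, rfl⟩⟩

theorem Gen.I_le_E (h : T.Gen K m c) (e : V → ℕ) : T.I m e ≤ T.E K m e :=
  T.I_le fun _ ha i => by simpa using T.smul_mem_E ha (h.mem_E i)

/-- (EV) evaluation at a point of the curve is onto the fibre. -/
theorem Gen.map_val (h : T.Gen K m c) (x : T.C) : (T.E K m 0).map (T.val x) = T.N m x := by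
  refine le_antisymm ?_ (span_le.2 ?_)
  · rintro _ ⟨σ, hσ, rfl⟩; exact (PTree.mem_E.1 hσ).2 x
  · rintro _ ⟨i, rfl⟩; exact ⟨_, h.mem_E i, rfl⟩

theorem tendsto_leadV {e : V → ℕ} {σ : J → T.C → ℂ} (hσ : σ ∈ T.W K e) {v : V} {n : ℕ}
    (hn : e v ≤ n) : Tendsto (fun x j => σ j x / T.z v x ^ (K j v + n)) (T.atInf v)
      (𝓝 (T.leadV K v n σ)) :=
  tendsto_pi_nhds.2 fun j => T.lead_spec (mem_W.1 hσ j) (by simpa using hn)

theorem leadV_smul {e e' : V → ℕ} {σ : J → T.C → ℂ} (hσ : σ ∈ T.W K e') {h : T.C → ℂ}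
    (H : h ∈ T.S e) {v : V} {n n' : ℕ} (hn : e v ≤ n) (hn' : e' v ≤ n') :
    T.leadV K v (n' + n) (h • σ) = T.lead v n h • T.leadV K v n' σ := by
  funext j
  have := (T.lead_spec (mem_W.1 hσ j) (v := v) (n := K j v + n') (by simpa using hn')).mul
    (T.lead_spec H hn)
  rw [add_assoc, mul_comm, mul_comm (T.lead _ _ _)] at this
  exact this.eq

variable [Finite J] [Finite ι]

/-- the value of a section at a pole lies in the fibre there. -/
theorem Gen.leadV_mem (h : T.Gen K m c) {e : V → ℕ} {σ : J → T.C → ℂ} (hσ : σ ∈ T.E K m e)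
    {v : V} {n : ℕ} (hn : e v ≤ n) : T.leadV K v n σ ∈ T.Ninf K m v := by
  have := Fintype.ofFinite J
  refine mem_span_of_tendsto (l := T.atInf v)
    (m := fun x i j => m i j x / T.z v x ^ (K j v + 0))
    (tendsto_pi_nhds.2 fun i => tendsto_leadV (h.mem i) le_rfl)
    (tendsto_leadV (PTree.mem_E.1 hσ).1 hn) ?_
  filter_upwards [(T.tendsto_z v).eventually (ev_ne 0)] with x hx
  let D : (J → ℂ) →ₗ[ℂ] (J → ℂ) :=
    LinearMap.pi fun j => (T.z v x ^ K j v)⁻¹ • LinearMap.proj j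
  have e1 : span ℂ (range fun i j => m i j x / T.z v x ^ (K j v + 0)) = (T.N m x).map D := by
    rw [N, map_span, ← range_comp]
    congr 2
    funext i j
    simp [D, div_eq_inv_mul]
  rw [e1]
  refine ⟨⟨(T.z v x ^ n)⁻¹ • T.val x σ, smul_mem _ _ ((PTree.mem_E.1 hσ).2 x), ?_⟩, ?_⟩
  · funext j
    simp [D, div_eq_inv_mul, pow_add, mul_assoc]
  · exact (finrank_map_le _ _).trans ((h.rk x).trans (h.rkInf v).symm).le

variable [DecidableEq V]

omit [Finite J] [Finite ι] in
theorem drop_E {e : V → ℕ} {v : V} {σ : J → T.C → ℂ} (hσ : σ ∈ T.E K m (e + Pi.single v 1))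
    (h0 : T.leadV K v (e v + 1) σ = 0) : σ ∈ T.E K m e := by
  refine PTree.mem_E.2 ⟨mem_W.2 fun j => T.drop (v := v) ?_ ?_, (PTree.mem_E.1 hσ).2⟩
  · rw [add_assoc]; exact mem_W.1 (PTree.mem_E.1 hσ).1 j
  · simpa [add_assoc] using congrFun h0 j

theorem Gen.step_le (h : T.Gen K m c) (e : V → ℕ) (v : V) :
    finrank ℂ (T.E K m (e + Pi.single v 1)) ≤ finrank ℂ (T.E K m e) + c := by
  rw [← finrank_map_add (T.leadV K v (e v + 1)), add_comm, ← h.rkInf v]
  refine add_le_add (Submodule.finrank_mono ?_) (Submodule.finrank_mono ?_)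
  · exact fun σ hσ => drop_E hσ.1 hσ.2
  · rintro _ ⟨σ, hσ, rfl⟩
    exact h.leadV_mem hσ (by simp)

omit [Finite ι] in
theorem Gen.step_ge (h : T.Gen K m c) (e : V → ℕ) (v : V) {B B' : Submodule ℂ (J → T.C → ℂ)}
    (hB : B ≤ T.W K (e + Pi.single v 1)) (hB' : B' ≤ T.W K e) (hBB : B' ≤ B)
    (hI : T.I m (e + Pi.single v 1) ≤ B) : finrank ℂ B' + c ≤ finrank ℂ B := by
  have := Submodule.finiteDimensional_of_le hB
  rw [← finrank_map_add (T.leadV K v (e v + 1)) B, add_comm, ← h.rkInf v]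
  refine add_le_add (Submodule.finrank_mono (span_le.2 ?_)) (Submodule.finrank_mono fun σ hσ => ⟨hBB hσ, ?_⟩)
  · rintro _ ⟨i, rfl⟩
    have h1 : T.z v ^ (e v + 1) ∈ T.S (e + Pi.single v 1) := T.pow_mem (by simp)
    refine ⟨_, hI (T.smul_mem_I h1 i), ?_⟩
    have := leadV_smul (h.mem i) h1 (v := v) (n := e v + 1) (n' := 0) (by simp) le_rfl
    rwa [zero_add, (T.lead_pow v _).eq, one_smul] at this
  · funext j
    exact T.lead_lt (mem_W.1 (hB' hσ) j) (by simp)

omit [DecidableEq V] in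
/-- (RR) Riemann–Roch for twists of a generated bundle. -/
theorem Gen.finrank_E [Fintype V] (h : T.Gen K m c) (e : V → ℕ) :
    finrank ℂ (T.E K m e) = finrank ℂ (T.E K m 0) + c * ∑ v, e v := by
  classical
  induction e using deg_induction with
  | h0 => simp
  | hs e v ih =>
    have h1 := h.step_le e v
    have h2 := h.step_ge e v (B := T.E K m (e + Pi.single v 1)) (B' := T.E K m e) inf_le_left
      inf_le_left (T.E_mono K m le_self_add) (h.I_le_E _)
    simp only [Pi.add_apply, Finset.sum_add_distrib, Finset.sum_pi_single', Finset.mem_univ,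
      if_true, mul_add, mul_one]
    omega

omit [DecidableEq V] in
theorem Gen.sup_I (h : T.Gen K m c) (e : V → ℕ) : T.E K m 0 ⊔ T.I m e = T.E K m e := by
  classical
  have := Fintype.ofFinite V
  have hle : ∀ e, T.E K m 0 ⊔ T.I m e ≤ T.E K m e := fun e =>
    sup_le (T.E_mono K m zero_le) (h.I_le_E e)
  refine eq_of_le_of_finrank_le (hle e) ?_
  rw [h.finrank_E e]
  induction e using deg_induction with
  | h0 =>
    have := Submodule.finiteDimensional_of_le (hle 0)
    simpa using Submodule.finrank_mono le_sup_left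
  | hs e v ih =>
    have h2 := h.step_ge e v ((hle (e + Pi.single v 1)).trans inf_le_left)
      ((hle e).trans inf_le_left) (sup_le_sup_left (T.I_mono m le_self_add) _) le_sup_right
    simp only [Pi.add_apply, Finset.sum_add_distrib, Finset.sum_pi_single', Finset.mem_univ,
      if_true, mul_add, mul_one]
    omega

omit [DecidableEq V] in
/-- a regular vector with values in the fibres is a regular combination of the generators. -/
theorem exists_I [Nonempty V] (hm : ∀ i j, m i j ∈ T.Pol) (hc : ∀ x, finrank ℂ (T.N m x) = c)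
    {σ : J → T.C → ℂ} (hσ : ∀ j, σ j ∈ T.Pol) (hN : ∀ x, T.val x σ ∈ T.N m x) :
    ∃ e, σ ∈ T.I m e := by
  classical
  have := Fintype.ofFinite J
  let A : Submodule ℂ (T.C → ℂ) :=
    { carrier := {a | ∃ e, a • σ ∈ T.I m e}
      add_mem' := fun ⟨e, he⟩ ⟨e', he'⟩ => ⟨e + e', by
        rw [add_smul]; exact add_mem (T.I_mono m le_self_add he) (T.I_mono m le_add_self he')⟩
      zero_mem' := ⟨0, by simp⟩
      smul_mem' := fun t _ ⟨e, he⟩ => ⟨e, by rw [smul_assoc]; exact smul_mem _ _ he⟩ }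
  have h1 : (1 : T.C → ℂ) ∈ A := by
    refine T.one_mem_of A ?_ fun x => ?_
    · rintro v a ⟨e, he⟩
      refine ⟨Pi.single v 1 + e, ?_⟩
      rw [mul_smul]
      exact T.smul_mem_I' (by simpa using T.pow_mem (v := v) (j := 1) (by simp)) he
    obtain ⟨B, s, hB⟩ := exists_chart (hc x)
    have hd := det_chM_mem T.Pol B s hm
    refine ⟨(chM B s m).det * (chM B s m).det, ?_, T.Pol.mul_mem hd hd, ?_⟩
    · choose e he using fun k => T.exists_S (T.Pol.mul_mem hd (chT_mem T.Pol B s hm hσ k))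
      refine ⟨∑ k, e k, ?_⟩
      have : ((chM B s m).det * (chM B s m).det) • σ =
          ∑ k, ((chM B s m).det * chT B s m σ k) • m (s k) := by
        funext j y
        have := cramer_loc B s (m := fun i j => m i j y) (σ := fun j => σ j y) (hc y).le (hN y) j
        have e1 := map_det_chM (Pi.evalAlgHom ℂ (fun _ : T.C => ℂ) y) B s m
        have e2 := map_chT (Pi.evalAlgHom ℂ (fun _ : T.C => ℂ) y) B s m σ
        simp only [Pi.evalAlgHom_apply] at e1 e2
        simp only [Finset.sum_apply, Pi.smul_apply, smul_eq_mul, Pi.mul_apply, e1, e2, mul_assoc,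
          ← Finset.mul_sum]
        linear_combination this
      rw [this]
      exact sum_mem fun k _ => T.smul_mem_I (T.S_mono
        (Finset.single_le_sum (fun _ _ => zero_le) (Finset.mem_univ k)) (he k)) _
    · have e1 := map_det_chM (Pi.evalAlgHom ℂ (fun _ : T.C => ℂ) x) B s m
      simp only [Pi.evalAlgHom_apply] at e1
      have e2 : (chM B s m).det x = 1 := e1.trans (by rw [← Matrix.det_one (n := Fin c), ← hB]; rfl)
      simp [e2]
  obtain ⟨e, he⟩ := h1
  exact ⟨e, by simpa using he⟩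

omit [DecidableEq V] in
/-- (LIFT) for large twists the sections are the combinations of the generators. -/
theorem Gen.lift [Nonempty V] (h : T.Gen K m c) : ∃ e₀, ∀ e, e₀ ≤ e → T.I m e = T.E K m e := by
  classical
  obtain ⟨s, hs⟩ : (T.E K m 0).FG := Module.Finite.iff_fg.1 inferInstance
  have : ∀ σ ∈ s, ∃ e, σ ∈ T.I m e := fun σ hσ => by
    have h0 : σ ∈ T.E K m 0 := by rw [← hs]; exact subset_span hσ
    have h1 := PTree.mem_E.1 h0
    exact exists_I (fun i j => T.S_le_Pol (mem_W.1 (h.mem i) j)) h.rk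
      (fun j => T.S_le_Pol (mem_W.1 h1.1 j)) h1.2
  choose! e he using this
  refine ⟨∑ σ ∈ s, e σ, fun e' he' => ?_⟩
  rw [← h.sup_I e', eq_comm, sup_eq_right, ← hs, span_le]
  intro σ hσ
  have h2 : e σ ≤ ∑ σ ∈ s, e σ := Finset.single_le_sum (fun _ _ => zero_le) hσ
  exact T.I_mono m (h2.trans he') (he σ hσ)

omit [DecidableEq V] in
/-- a regular vector lying in the fibres near the poles lies in all fibres. -/
theorem val_mem_of_atInf [Nonempty V] (hm : ∀ i j, m i j ∈ T.Pol)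
    (hc : ∀ x, finrank ℂ (T.N m x) = c) {σ : J → T.C → ℂ} (hσ : ∀ j, σ j ∈ T.Pol)
    (hN : ∀ v, ∀ᶠ x in T.atInf v, T.val x σ ∈ T.N m x) (x : T.C) : T.val x σ ∈ T.N m x := by
  have := Fintype.ofFinite J
  obtain ⟨B, s, hB⟩ := exists_chart (hc x)
  have hd := det_chM_mem T.Pol B s hm
  have e1 := fun y => map_det_chM (Pi.evalAlgHom ℂ (fun _ : T.C => ℂ) y) B s m
  have e2 := fun y => map_chT (Pi.evalAlgHom ℂ (fun _ : T.C => ℂ) y) B s m σ
  simp only [Pi.evalAlgHom_apply] at e1 e2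
  have e3 : (chM B s m).det x = 1 := (e1 x).trans (by rw [← Matrix.det_one (n := Fin c), ← hB]; rfl)
  have : T.val x σ = ∑ k, chT B s m σ k x • T.val x (m (s k)) := by
    funext j
    have h0 : (chM B s m).det * ((chM B s m).det * σ j - ∑ k, chT B s m σ k * m (s k) j) = 0 := by
      refine T.Pol_eq_zero (T.Pol.mul_mem hd (T.Pol.sub_mem (T.Pol.mul_mem hd (hσ j))
        (T.Pol.sum_mem fun k _ => T.Pol.mul_mem (chT_mem T.Pol B s hm hσ k) (hm _ _)))) fun v => ?_
      filter_upwards [hN v] with y hy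
      have := cramer_loc B s (hc y).le hy j
      simp only [Finset.sum_apply, Pi.sub_apply, Pi.mul_apply, e1, e2]
      exact this
    have := congrFun h0 x
    simp only [Finset.sum_apply, Pi.sub_apply, Pi.mul_apply, e3, one_mul, Pi.zero_apply] at this
    simpa [sub_eq_zero] using this
  rw [this]
  exact sum_mem fun k _ => smul_mem _ _ (subset_span ⟨_, rfl⟩)

end PTree

end Crest.Agent.X262.Obs
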