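import Mathlib

/-! # Trees of projective lines with poles

`V` is a finite set of poles on a genus-zero nodal curve, at least one on every component; `z v` is
the function with a simple pole at `v`.  The curve minus the poles is the affine curve `crv α β`.
`S e` is the space of functions with poles of order `≤ e v`. -/

set_option autoImplicit false

open Filter Topology Set Bornology

namespace Crest.Agent.X262.Obs

variable {V : Type*}

/-- the affine curve with structure constants `α, β`. -/
def crv (α β : V → V → ℂ) : Set (V → ℂ) :=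
  {y | ∀ v w, v ≠ w → y v * y w = α v w + β v w * y v + β w v * y w}

/-- a tree with poles: every coordinate takes infinitely many values on the curve. -/
structure PTree (V : Type*) where
  α : V → V → ℂ
  β : V → V → ℂ
  inf : ∀ v, ((fun y : V → ℂ => y v) '' crv α β).Infinite

open Classical in
/-- the point of the component of the pole `v` with coordinate `c`. -/
noncomputable def ptf (α β : V → V → ℂ) (v : V) (c : ℂ) : V → ℂ :=
  fun w => if w = v then c else (α v w + β v w * c) / (c - β w v)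

@[simp] theorem ptf_self (α β : V → V → ℂ) (v : V) (c : ℂ) : ptf α β v c v = c := by simp [ptf]

theorem ptf_ne (α β : V → V → ℂ) {v w : V} (h : w ≠ v) (c : ℂ) :
    ptf α β v c w = (α v w + β v w * c) / (c - β w v) := by simp [ptf, h]

theorem crv_eq {α β : V → V → ℂ} {y : V → ℂ} (hy : y ∈ crv α β) {v w : V} (h : w ≠ v)
    (hc : y v ≠ β w v) : y w = (α v w + β v w * y v) / (y v - β w v) := by
  rw [eq_div_iff (sub_ne_zero.2 hc)]
  have := hy v w h.symm
  linear_combination this

namespace PTree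

variable (T : PTree V)

/-- the points of the affine curve. -/
abbrev C : Type _ := crv T.α T.β

/-- the coordinate functions. -/
def z (v : V) : T.C → ℂ := fun y => y.1 v

theorem z_mul {v w : V} (h : v ≠ w) :
    T.z v * T.z w = T.α v w • 1 + T.β v w • T.z v + T.β w v • T.z w := by
  funext y; simpa [z] using y.2 v w h

theorem α_symm {v w : V} (h : v ≠ w) : T.α v w = T.α w v := by
  obtain ⟨_, y, hy, -⟩ := (T.inf v).nonempty
  have h1 := hy v w h
  have h2 := hy w v h.symm
  linear_combination h2 - h1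

theorem ptf_mem (v : V) {c : ℂ} (hc : ∀ w, w ≠ v → c ≠ T.β w v) :
    ptf T.α T.β v c ∈ crv T.α T.β := by
  intro w w' hww
  by_cases hw : w = v
  · subst hw
    rw [ptf_self, ptf_ne _ _ hww.symm]
    have := sub_ne_zero.2 (hc w' hww.symm)
    field_simp; ring
  by_cases hw' : w' = v
  · subst hw'
    rw [ptf_self, ptf_ne _ _ hw, T.α_symm hww]
    have := sub_ne_zero.2 (hc w hw)
    field_simp; ring
  rw [ptf_ne _ _ hw, ptf_ne _ _ hw']
  have h1 := sub_ne_zero.2 (hc w hw)
  have h2 := sub_ne_zero.2 (hc w' hw')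
  set p : Polynomial ℂ := (Polynomial.C (T.α v w) + Polynomial.C (T.β v w) * Polynomial.X) * (Polynomial.C (T.α v w') + Polynomial.C (T.β v w') * Polynomial.X) -
    (Polynomial.C (T.α w w') * (Polynomial.X - Polynomial.C (T.β w v)) * (Polynomial.X - Polynomial.C (T.β w' v)) +
      Polynomial.C (T.β w w') * (Polynomial.C (T.α v w) + Polynomial.C (T.β v w) * Polynomial.X) * (Polynomial.X - Polynomial.C (T.β w' v)) +
      Polynomial.C (T.β w' w) * (Polynomial.C (T.α v w') + Polynomial.C (T.β v w') * Polynomial.X) * (Polynomial.X - Polynomial.C (T.β w v))) with hp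
  have hp0 : p = 0 := by
    apply Polynomial.eq_zero_of_infinite_isRoot
    refine ((T.inf v).sdiff (Set.toFinite {T.β w v, T.β w' v})).mono ?_
    rintro _ ⟨⟨y, hy, rfl⟩, hn⟩
    simp only [mem_insert_iff, mem_singleton_iff, not_or] at hn
    have e1 := hy v w (Ne.symm hw)
    have e2 := hy v w' (Ne.symm hw')
    have e3 := hy w w' hww
    have a1 : T.α v w + T.β v w * y v = y w * (y v - T.β w v) := by linear_combination -e1
    have a2 : T.α v w' + T.β v w' * y v = y w' * (y v - T.β w' v) := by linear_combination -e2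
    simp only [mem_ofPred_eq, Polynomial.IsRoot, hp, Polynomial.eval_sub, Polynomial.eval_add,
      Polynomial.eval_mul, Polynomial.eval_C, Polynomial.eval_X, a1, a2]
    linear_combination (y v - T.β w v) * (y v - T.β w' v) * e3
  have := congrArg (Polynomial.eval c) hp0
  simp only [hp, Polynomial.eval_sub, Polynomial.eval_add, Polynomial.eval_mul, Polynomial.eval_C,
    Polynomial.eval_X, Polynomial.eval_zero] at this
  field_simp
  linear_combination this

/-- the filter of points tending to the pole `v`. -/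
noncomputable def atInf (v : V) : Filter T.C := comap (T.z v) (cobounded ℂ)

theorem tendsto_z (v : V) : Tendsto (T.z v) (T.atInf v) (cobounded ℂ) := tendsto_comap

theorem ev_ne (a : ℂ) : ∀ᶠ c in cobounded ℂ, c ≠ a := by
  have h : IsBounded ({a} : Set ℂ) := Bornology.isBounded_singleton
  exact h

instance atInf_neBot [Finite V] (v : V) : (T.atInf v).NeBot := by
  refine comap_neBot fun s hs => ?_
  have h : ∀ᶠ c in cobounded ℂ, ∀ w, c ≠ T.β w v := eventually_all.2 fun w => ev_ne _
  obtain ⟨c, hc, hc'⟩ := ((show ∀ᶠ c in cobounded ℂ, c ∈ s from hs).and h).exists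
  exact ⟨⟨_, T.ptf_mem v fun w _ => hc' w⟩, by simpa [z] using hc⟩

theorem tendsto_z_ne {v w : V} (h : w ≠ v) : Tendsto (T.z w) (T.atInf v) (𝓝 (T.β v w)) := by
  have h1 : Tendsto (fun c : ℂ => T.β v w + (T.α v w + T.β v w * T.β w v) * (c - T.β w v)⁻¹)
      (cobounded ℂ) (𝓝 (T.β v w + (T.α v w + T.β v w * T.β w v) * 0)) := by
    refine tendsto_const_nhds.add (tendsto_const_nhds.mul ?_)
    exact tendsto_inv₀_cobounded.comp (tendsto_sub_const_cobounded _)
  rw [mul_zero, add_zero] at h1
  refine (h1.comp (T.tendsto_z v)).congr' ?_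
  filter_upwards [(T.tendsto_z v).eventually (ev_ne (T.β w v))] with y hy
  have := sub_ne_zero.2 hy
  have e := crv_eq y.2 h hy
  simp only [Function.comp, z] at *
  rw [e]; field_simp; ring

/-- `h / z_v^n → a` at the pole `v`. -/
def Lead (v : V) (n : ℕ) (h : T.C → ℂ) (a : ℂ) : Prop :=
  Tendsto (fun y => h y / T.z v y ^ n) (T.atInf v) (𝓝 a)

variable {T}

theorem Lead.add {v n h h' a a'} (H : T.Lead v n h a) (H' : T.Lead v n h' a') :
    T.Lead v n (h + h') (a + a') := by
  simpa [Lead, add_div] using Tendsto.add H H'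

theorem Lead.smul {v n h a} (H : T.Lead v n h a) (t : ℂ) : T.Lead v n (t • h) (t * a) := by
  simpa [Lead, mul_div_assoc] using Tendsto.const_mul t H

theorem Lead.mul {v n n' h h' a a'} (H : T.Lead v n h a) (H' : T.Lead v n' h' a') :
    T.Lead v (n + n') (h * h') (a * a') := by
  refine (Tendsto.mul H H').congr fun y => ?_
  simp [pow_add, div_mul_div_comm]

theorem Lead.succ {v n h a} (H : T.Lead v n h a) : T.Lead v (n + 1) h 0 := by
  have := Tendsto.mul H (tendsto_inv₀_cobounded.comp (T.tendsto_z v))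
  rw [mul_zero] at this
  refine this.congr fun y => ?_
  simp [pow_succ, div_eq_mul_inv, mul_comm, mul_left_comm]

theorem Lead.of_lt {v n n' h a} (H : T.Lead v n h a) (hn : n < n') : T.Lead v n' h 0 := by
  induction hn with
  | refl => exact H.succ
  | step _ ih => exact ih.succ

theorem Lead.unique [Finite V] {v n h a a'} (H : T.Lead v n h a) (H' : T.Lead v n h a') :
    a = a' := tendsto_nhds_unique H H'

variable (T)

theorem lead_zero (v n) : T.Lead v n 0 0 := by simpa [Lead] using tendsto_const_nhds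

theorem lead_pow (v n) : T.Lead v n (T.z v ^ n) 1 := by
  refine tendsto_const_nhds.congr' ?_
  filter_upwards [(T.tendsto_z v).eventually (ev_ne 0)] with y hy
  simp [hy]

theorem lead_pow_ne {v w} (h : w ≠ v) (n) : T.Lead v 0 (T.z w ^ n) (T.β v w ^ n) := by
  simpa [Lead] using (T.tendsto_z_ne h).pow n

/-- functions with a leading coefficient of order `n` at `v`. -/
def Gr (v : V) (n : ℕ) : Submodule ℂ (T.C → ℂ) where
  carrier := {h | ∃ a, T.Lead v n h a}
  add_mem' := fun ⟨_, h⟩ ⟨_, h'⟩ => ⟨_, h.add h'⟩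
  zero_mem' := ⟨_, T.lead_zero v n⟩
  smul_mem' := fun t _ ⟨_, h⟩ => ⟨_, h.smul t⟩

theorem exists_lead [Finite V] (v : V) (n : ℕ) :
    ∃ L : (T.C → ℂ) →ₗ[ℂ] ℂ, ∀ h a, T.Lead v n h a → L h = a := by
  let f : T.Gr v n →ₗ[ℂ] ℂ :=
    { toFun := fun h => h.2.choose
      map_add' := fun h h' =>
        (h + h').2.choose_spec.unique (h.2.choose_spec.add h'.2.choose_spec)
      map_smul' := fun t h => (t • h).2.choose_spec.unique (h.2.choose_spec.smul t) }
  obtain ⟨g, hg⟩ := f.exists_extend
  refine ⟨g, fun h a H => ?_⟩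
  have := LinearMap.congr_fun hg ⟨h, a, H⟩
  exact this.trans ((show h ∈ T.Gr v n from ⟨a, H⟩).choose_spec.unique H)

/-- the leading coefficient of order `n` at the pole `v`, as a linear functional. -/
noncomputable def lead [Finite V] (v : V) (n : ℕ) : (T.C → ℂ) →ₗ[ℂ] ℂ :=
  (T.exists_lead v n).choose

theorem Lead.eq [Finite V] {T : PTree V} {v n h a} (H : T.Lead v n h a) : T.lead v n h = a :=
  (T.exists_lead v n).choose_spec h a H

end PTree

/-- index set of the monomials `z_v^j`, `j ≤ e v`. -/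
abbrev Mon (e : V → ℕ) : Type _ := Σ v, Fin (e v + 1)

namespace PTree

variable (T : PTree V)

/-- the monomials. -/
def mon (e : V → ℕ) (p : Mon e) : T.C → ℂ := T.z p.1 ^ (p.2 : ℕ)

/-- sections of `O(e)`. -/
def S (e : V → ℕ) : Submodule ℂ (T.C → ℂ) := Submodule.span ℂ (range (T.mon e))

instance [Finite V] (e : V → ℕ) : FiniteDimensional ℂ (T.S e) :=
  FiniteDimensional.span_of_finite ℂ (finite_range _)

theorem pow_mem {e : V → ℕ} {v : V} {j : ℕ} (h : j ≤ e v) : T.z v ^ j ∈ T.S e :=
  Submodule.subset_span ⟨⟨v, ⟨j, Nat.lt_succ_of_le h⟩⟩, rfl⟩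

theorem one_mem [Nonempty V] (e : V → ℕ) : (1 : T.C → ℂ) ∈ T.S e := by
  simpa using T.pow_mem (e := e) (v := Classical.arbitrary V) (Nat.zero_le _)

theorem S_le {e : V → ℕ} {M : Submodule ℂ (T.C → ℂ)} :
    T.S e ≤ M ↔ ∀ v j, j ≤ e v → T.z v ^ j ∈ M := by
  refine ⟨fun h v j hj => h (T.pow_mem hj), fun h => Submodule.span_le.2 ?_⟩
  rintro _ ⟨⟨v, j⟩, rfl⟩
  exact h v j (Nat.le_of_lt_succ j.2)

theorem S_mono {e e' : V → ℕ} (h : e ≤ e') : T.S e ≤ T.S e' :=
  T.S_le.2 fun v _ hj => T.pow_mem (hj.trans (h v))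

theorem pow_mul_pow_mem {e : V → ℕ} {v w : V} (h : v ≠ w) :
    ∀ n i j, i + j = n → i ≤ e v → j ≤ e w → T.z v ^ i * T.z w ^ j ∈ T.S e := by
  intro n
  induction n using Nat.strong_induction_on with
  | _ n ih =>
    rintro (_ | i) (_ | j) hn hi hj
    · simpa using T.pow_mem hi
    · simpa using T.pow_mem hj
    · simpa using T.pow_mem hi
    · have : T.z v ^ (i + 1) * T.z w ^ (j + 1) = T.α v w • (T.z v ^ i * T.z w ^ j) +
          T.β v w • (T.z v ^ (i + 1) * T.z w ^ j) + T.β w v • (T.z v ^ i * T.z w ^ (j + 1)) := by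
        funext y
        have := y.2 v w h
        simp only [z, Pi.mul_apply, Pi.pow_apply, Pi.add_apply, Pi.smul_apply, smul_eq_mul]
        linear_combination (y.1 v ^ i * y.1 w ^ j) * this
      rw [this]
      refine add_mem (add_mem (Submodule.smul_mem _ _ ?_) (Submodule.smul_mem _ _ ?_))
        (Submodule.smul_mem _ _ ?_)
      · exact ih (i + j) (by omega) i j rfl (by omega) (by omega)
      · exact ih (i + 1 + j) (by omega) _ j rfl hi (by omega)
      · exact ih (i + (j + 1)) (by omega) i _ rfl (by omega) hj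

theorem mul_mem {e e' : V → ℕ} {h h' : T.C → ℂ} (H : h ∈ T.S e) (H' : h' ∈ T.S e') :
    h * h' ∈ T.S (e + e') := by
  have : T.S e * T.S e' ≤ T.S (e + e') := by
    rw [S, S, Submodule.span_mul_span, Submodule.span_le]
    rintro _ ⟨_, ⟨⟨v, i⟩, rfl⟩, _, ⟨⟨w, j⟩, rfl⟩, rfl⟩
    have hi := Nat.le_of_lt_succ i.2
    have hj := Nat.le_of_lt_succ j.2
    by_cases hvw : v = w
    · subst hvw
      simp only [mon, ← pow_add]
      exact T.pow_mem (add_le_add hi hj)
    · exact T.pow_mul_pow_mem hvw _ _ _ rfl (hi.trans (Nat.le_add_right _ _))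
        (hj.trans (Nat.le_add_left _ _))
  exact this (Submodule.mul_mem_mul H H')

theorem S_le_Gr {e : V → ℕ} {v : V} {n : ℕ} (h : e v ≤ n) : T.S e ≤ T.Gr v n := by
  refine T.S_le.2 fun w j hj => ?_
  by_cases hw : w = v
  · subst hw
    rcases (hj.trans h).eq_or_lt with rfl | hl
    · exact ⟨_, T.lead_pow w j⟩
    · exact ⟨_, (T.lead_pow w j).of_lt hl⟩
  · rcases n.eq_zero_or_pos with rfl | hl
    · exact ⟨_, T.lead_pow_ne hw j⟩
    · exact ⟨_, (T.lead_pow_ne hw j).of_lt hl⟩

theorem lead_spec [Finite V] {e : V → ℕ} {h : T.C → ℂ} (H : h ∈ T.S e) {v : V} {n : ℕ}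
    (hn : e v ≤ n) : T.Lead v n h (T.lead v n h) := by
  obtain ⟨a, ha⟩ := T.S_le_Gr hn H
  rwa [ha.eq]

theorem lead_lt [Finite V] {e : V → ℕ} {h : T.C → ℂ} (H : h ∈ T.S e) {v : V} {n : ℕ}
    (hn : e v < n) : T.lead v n h = 0 := ((T.lead_spec H le_rfl).of_lt hn).eq

/-- a section of `O(e + v)` with vanishing leading coefficient is a section of `O(e)`. -/
theorem drop [Finite V] [DecidableEq V] {e : V → ℕ} {v : V} {h : T.C → ℂ}
    (H : h ∈ T.S (e + Pi.single v 1)) (h0 : T.lead v (e v + 1) h = 0) : h ∈ T.S e := by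
  have : T.S (e + Pi.single v 1) ≤ T.S e ⊔ ℂ ∙ T.z v ^ (e v + 1) := by
    refine T.S_le.2 fun w j hj => ?_
    by_cases hw : w = v
    · subst hw
      simp only [Pi.add_apply, Pi.single_eq_same] at hj
      rcases hj.eq_or_lt with rfl | hl
      · exact Submodule.mem_sup_right (Submodule.mem_span_singleton_self _)
      · exact Submodule.mem_sup_left (T.pow_mem (by omega))
    · exact Submodule.mem_sup_left (T.pow_mem (by simpa [hw] using hj))
  obtain ⟨h', H', _, hb, rfl⟩ := Submodule.mem_sup.1 (this H)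
  obtain ⟨a, rfl⟩ := Submodule.mem_span_singleton.1 hb
  rw [map_add, map_smul, T.lead_lt H' (Nat.lt_succ_self _), (T.lead_pow v _).eq] at h0
  have : a = 0 := by simpa using h0
  simpa [this] using H'

end PTree

/-- induction on multi-degrees, one pole at a time. -/
theorem deg_induction [Finite V] [DecidableEq V] {P : (V → ℕ) → Prop} (h0 : P 0)
    (hs : ∀ e v, P e → P (e + Pi.single v 1)) (e : V → ℕ) : P e := by
  have := Fintype.ofFinite V
  generalize hn : ∑ v, e v = n
  induction n generalizing e with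
  | zero =>
    have : e = 0 := funext fun v => Finset.sum_eq_zero_iff.1 hn v (Finset.mem_univ v)
    exact this ▸ h0
  | succ n ih =>
    obtain ⟨v, -, hv⟩ : ∃ v ∈ Finset.univ, e v ≠ 0 :=
      Finset.exists_ne_zero_of_sum_ne_zero (by omega)
    have he : e = (e - Pi.single v 1) + Pi.single v 1 := by
      funext w
      by_cases hw : w = v
      · subst hw; simp; omega
      · simp [hw]
    rw [he]
    refine hs _ v (ih _ ?_)
    rw [he] at hn
    simp only [Pi.add_apply, Finset.sum_add_distrib, Finset.sum_pi_single', Finset.mem_univ,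
      if_true] at hn
    omega

namespace PTree

variable (T : PTree V)

/-- growth criterion: a section of some `O(e')` with pole orders `≤ e v` is a section of `O(e)`. -/
theorem mem_of_Gr [Finite V] {e e' : V → ℕ} {h : T.C → ℂ} (H : h ∈ T.S (e + e'))
    (hg : ∀ v, h ∈ T.Gr v (e v)) : h ∈ T.S e := by
  classical
  induction e' using deg_induction with
  | h0 => simpa using H
  | hs e' v ih =>
    rw [← add_assoc] at H
    obtain ⟨a, ha⟩ := hg v
    exact ih (T.drop H (ha.of_lt (by simp only [Pi.add_apply]; omega)).eq)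

/-- a section vanishing near all poles vanishes. -/
theorem eq_zero [Finite V] {e : V → ℕ} {h : T.C → ℂ} (H : h ∈ T.S e)
    (h0 : ∀ v, ∀ᶠ y in T.atInf v, h y = 0) : h = 0 := by
  have h1 : h ∈ T.S 0 := T.mem_of_Gr (e' := e) (by simpa using H) fun v =>
    ⟨0, tendsto_const_nhds.congr' ((h0 v).mono fun y hy => by simp [hy])⟩
  rcases isEmpty_or_nonempty V with hV | ⟨⟨v⟩⟩
  · simpa [S, range_eq_empty] using h1
  have : T.S 0 ≤ ℂ ∙ 1 := T.S_le.2 fun w j hj => by
    obtain rfl : j = 0 := by simpa using hj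
    simpa using Submodule.mem_span_singleton_self _
  obtain ⟨a, rfl⟩ := Submodule.mem_span_singleton.1 (this h1)
  obtain ⟨y, hy⟩ := (h0 v).exists
  have : a = 0 := by simpa using hy
  simp [this]

/-- the algebra of regular functions on the affine curve. -/
noncomputable def Pol : Subalgebra ℂ (T.C → ℂ) := (MvPolynomial.aeval T.z).range

theorem z_mem (v : V) : T.z v ∈ T.Pol := ⟨MvPolynomial.X v, by simp⟩

theorem S_le_Pol {e : V → ℕ} {h : T.C → ℂ} (H : h ∈ T.S e) : h ∈ T.Pol :=
  (T.S_le (M := T.Pol.toSubmodule)).2 (fun v j _ => T.Pol.pow_mem (T.z_mem v) j) H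

theorem exists_S [Nonempty V] {h : T.C → ℂ} (H : h ∈ T.Pol) : ∃ e, h ∈ T.S e := by
  classical
  obtain ⟨p, rfl⟩ := H
  induction p using MvPolynomial.induction_on with
  | C a => exact ⟨0, by
      simpa [Algebra.algebraMap_eq_smul_one] using (T.S 0).smul_mem a (T.one_mem 0)⟩
  | add p q hp hq =>
    obtain ⟨e, he⟩ := hp
    obtain ⟨e', he'⟩ := hq
    exact ⟨e + e', by
      simpa using add_mem (T.S_mono le_self_add he) (T.S_mono le_add_self he')⟩
  | mul_X p v hp =>
    obtain ⟨e, he⟩ := hp
    exact ⟨e + Pi.single v 1, by simpa using T.mul_mem he (T.pow_mem (v := v) (j := 1) (by simp))⟩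

theorem Pol_eq_zero [Finite V] [Nonempty V] {h : T.C → ℂ} (H : h ∈ T.Pol)
    (h0 : ∀ v, ∀ᶠ y in T.atInf v, h y = 0) : h = 0 :=
  let ⟨_, he⟩ := T.exists_S H; T.eq_zero he h0

theorem aeval_apply (p : MvPolynomial V ℂ) (y : T.C) :
    MvPolynomial.aeval T.z p y = MvPolynomial.eval y.1 p := by
  induction p using MvPolynomial.induction_on with
  | C a => simp
  | add p q hp hq => simp [hp, hq]
  | mul_X p v hp => simp [hp, z]

/-- Nullstellensatz on the affine curve. -/
theorem one_mem_of [Finite V] (A : Submodule ℂ (T.C → ℂ)) (hm : ∀ v, ∀ a ∈ A, T.z v * a ∈ A)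
    (hne : ∀ y, ∃ a ∈ A, a ∈ T.Pol ∧ a y ≠ 0) : (1 : T.C → ℂ) ∈ A := by
  have hp : ∀ p : MvPolynomial V ℂ, ∀ a ∈ A, MvPolynomial.aeval T.z p * a ∈ A := by
    intro p
    induction p using MvPolynomial.induction_on with
    | C t => intro a ha; simpa [Algebra.algebraMap_eq_smul_one] using A.smul_mem t ha
    | add p q hp hq => intro a ha; simpa [add_mul] using add_mem (hp a ha) (hq a ha)
    | mul_X p v hp => intro a ha; simpa [mul_assoc] using hp _ (hm v a ha)
  let I : Ideal (MvPolynomial V ℂ) :=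
    { carrier := {p | MvPolynomial.aeval T.z p ∈ A}
      add_mem' := fun h h' => by simpa using add_mem h h'
      zero_mem' := by simp
      smul_mem' := fun p q hq => by simpa using hp p _ hq }
  by_contra h1
  have hI : I ≠ ⊤ := fun h => h1 (by
    have : MvPolynomial.aeval T.z (1 : MvPolynomial V ℂ) ∈ A := (Ideal.eq_top_iff_one I).1 h
    simpa using this)
  obtain ⟨M, hM, hIM⟩ := I.exists_le_maximal hI
  obtain ⟨y, rfl⟩ := MvPolynomial.isMaximal_iff_eq_vanishingIdeal_singleton.1 hM
  have hv : ∀ p ∈ I, MvPolynomial.eval y p = 0 := fun p hp => by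
    simpa [MvPolynomial.aeval_eq_eval] using hIM hp
  have hy : y ∈ crv T.α T.β := by
    intro v w h
    have := hv (MvPolynomial.X v * MvPolynomial.X w - (MvPolynomial.C (T.α v w) +
      MvPolynomial.C (T.β v w) * MvPolynomial.X v + MvPolynomial.C (T.β w v) * MvPolynomial.X w))
      (by
        change MvPolynomial.aeval T.z _ ∈ A
        convert A.zero_mem
        simp [T.z_mul h, Algebra.algebraMap_eq_smul_one])
    simpa [sub_eq_zero] using this
  obtain ⟨_, ha, ⟨p, rfl⟩, h0⟩ := hne ⟨y, hy⟩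
  exact h0 ((T.aeval_apply p ⟨y, hy⟩).trans (hv p ha))

end PTree

end Crest.Agent.X262.Obs
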